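import Vale.Agent.P181.Foulkes

/-!
# Foulkes' conjecture in the range `b ≥ (a - 1) ^ 2`
-/

open Vale.Agent.P181

namespace Vale.Agent.Results.P181.FoulkesQuadraticRange

theorem result : ∀ a b : ℕ, 1 ≤ a → (a - 1) ^ 2 ≤ b →
    ∀ (V : Type) [AddCommGroup V] [Module ℂ V] [FiniteDimensional ℂ V],
      ∃ Φ : SymPower a (SymPower b V) →ₗ[ℂ] SymPower b (SymPower a V), Function.Injective Φ ∧
        ∀ g : V →ₗ[ℂ] V, Φ ∘ₗ SymPower.map a (SymPower.map b g) =
          SymPower.map b (SymPower.map a g) ∘ₗ Φ :=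
  fun _ _ _ hb _ _ _ _ => foulkes hb

end Vale.Agent.Results.P181.FoulkesQuadraticRange
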